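import Vale.Agent.P268.T.W196.One
import Vale.Agent.P268.T.Push

/-!
# P268, topological half: LIFT (step (1) of the slide, B6c)

The strand `k` (constant for `y₀ ≥ -1/2`) is lifted to `v k + L e₂` over `y₀ ≥ -1/4`; all the
other strands do not move. It is enough that the letters of the other strands do not link `v k`.
-/

set_option linter.unusedSectionVars false

namespace Vale.Agent.P268.T

open Set Filter Topology Push W196

namespace H83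

/-- The profile of the lift: `0` for `u ≤ -1/2` and `1` for `u ≥ -1/4`. -/
noncomputable def lifts (u : ℝ) : ℝ := cl (4 * (u + 1 / 2))

theorem lifts_of_le {u : ℝ} (h : u ≤ -(1 / 2)) : lifts u = 0 := by
  unfold lifts cl
  rw [min_eq_right (by linarith), max_eq_left (by linarith)]

theorem lifts_of_ge {u : ℝ} (h : -(1 / 4) ≤ u) : lifts u = 1 := by
  unfold lifts cl
  rw [min_eq_left (by linarith), max_eq_right zero_le_one]

theorem lifts_mem (u : ℝ) : lifts u ∈ Icc (0 : ℝ) 1 := cl_mem _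

theorem continuous_lifts : Continuous lifts := by
  unfold lifts
  exact continuous_cl.comp (by fun_prop)

theorem cl_of_le {τ : ℝ} (h : τ ≤ 0) : cl τ = 0 := by
  unfold cl
  rw [min_eq_right (by linarith), max_eq_left h]

theorem cl_of_ge {τ : ℝ} (h : 1 ≤ τ) : cl τ = 1 := by
  unfold cl
  rw [min_eq_left h, max_eq_right zero_le_one]

variable {κ : Type*} [Fintype κ] [DecidableEq κ]
variable {V : Type*} [NormedAddCommGroup V] [NormedSpace ℝ V] [FiniteDimensional ℝ V]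
variable {W : Type*} [NormedAddCommGroup W] [NormedSpace ℝ W] [FiniteDimensional ℝ W]

/-- **LIFT**, one strand `ck`, the others `c i`, `i : κ`. -/
theorem lift_strand {n : ℕ} (hn : 3 ≤ n) (hV : Module.finrank ℝ V = n + 1)
    (H : Submodule ℝ V) (hH : Module.finrank ℝ H = n) (hW : Module.finrank ℝ W + 1 ≤ n)
    {C : Set W} {J : Set (W × ℝ)} (hC : IsCompact C) (hconv : Convex ℝ C) (hne : C.Nonempty)
    (hJ : IsClosed J) (hJC : J ⊆ C ×ˢ Icc (0 : ℝ) 1)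
    (y0 : W × ℝ → ℝ) (hy0 : ContinuousOn y0 (C ×ˢ Icc (0 : ℝ) 1))
    (c : κ → W × ℝ → V) (hc : ∀ i, ContinuousOn (c i) (C ×ˢ Icc (0 : ℝ) 1))
    (hinj : ∀ x ∈ C ×ˢ Icc (0 : ℝ) 1, Function.Injective fun i => c i x)
    (hcr : ∀ i, ∀ y ∈ C, c i (y, 0) ∈ H)
    (v : κ → V) (hv : ∀ i, v i ∈ H)
    (hcJ : ∀ i, ∀ x ∈ J, c i x = v i)
    (hc0 : ∀ i, ∀ x ∈ C ×ˢ Icc (0 : ℝ) 1, y0 x ≤ 0 → c i x = v i)
    (ck : W × ℝ → V) (hck : ContinuousOn ck (C ×ˢ Icc (0 : ℝ) 1))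
    (hckr : ∀ y ∈ C, ck (y, 0) ∈ H) (vk : V) (hvk : vk ∈ H)
    (hckJ : ∀ x ∈ J, ck x = vk)
    (hck0 : ∀ x ∈ C ×ˢ Icc (0 : ℝ) 1, -(1 / 2) ≤ y0 x → ck x = vk)
    (hkc : ∀ i, ∀ x ∈ C ×ˢ Icc (0 : ℝ) 1, ck x ≠ c i x)
    (e2 : V) (he2 : e2 ∈ H) {L : ℝ} (hL : 0 ≤ L)
    (hline : ∀ i, ∀ s ∈ Icc (0 : ℝ) L, vk + s • e2 ≠ v i)
    (hfar : ∀ i, ∀ x ∈ C ×ˢ Icc (0 : ℝ) 1, ∀ u ∈ Icc (0 : ℝ) 1,
      vk + L • e2 ≠ v i + u • (c i x - v i))
    (E : κ → ℝ × (W × ℝ) → V)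
    (hE : ∀ i, ContinuousOn (E i) (Icc (0 : ℝ) 1 ×ˢ (C ×ˢ Icc (0 : ℝ) 1)))
    (hE0 : ∀ i, ∀ p ∈ Icc (0 : ℝ) 1 ×ˢ (C ×ˢ Icc (0 : ℝ) 1), E i p ≠ 0)
    (hE1 : ∀ i, ∀ x ∈ C ×ˢ Icc (0 : ℝ) 1, E i (0, x) = vk - c i x)
    (hE2 : ∀ i, ∀ x ∈ C ×ˢ Icc (0 : ℝ) 1, E i (1, x) = vk - v i)
    (hEr : ∀ i, ∀ t ∈ Icc (0 : ℝ) 1, ∀ y ∈ C, E i (t, (y, 0)) ∈ H)
    (hEJ : ∀ i, ∀ t ∈ Icc (0 : ℝ) 1, ∀ x ∈ J, E i (t, x) = vk - v i)
    (hEv : ∀ i, ∀ t ∈ Icc (0 : ℝ) 1, ∀ x ∈ C ×ˢ Icc (0 : ℝ) 1, y0 x ≤ 0 → E i (t, x) = vk - v i) :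
    ∃ F : ℝ × (W × ℝ) → V,
      ContinuousOn F (Icc (0 : ℝ) 1 ×ˢ (C ×ˢ Icc (0 : ℝ) 1)) ∧
      (∀ x ∈ C ×ˢ Icc (0 : ℝ) 1, F (0, x) = ck x) ∧
      (∀ x ∈ C ×ˢ Icc (0 : ℝ) 1, F (1, x) = ck x + (lifts (y0 x) * L) • e2) ∧
      (∀ t ∈ Icc (0 : ℝ) 1, ∀ y ∈ C, F (t, (y, 0)) ∈ H) ∧
      (∀ t ∈ Icc (0 : ℝ) 1, ∀ x ∈ J, F (t, x) = vk + (cl (3 * t - 1) * (lifts (y0 x) * L)) • e2) ∧
      ∀ p ∈ Icc (0 : ℝ) 1 ×ˢ (C ×ˢ Icc (0 : ℝ) 1), ∀ i, F p ≠ c i p.2 := by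
  have h0I : (0 : ℝ) ∈ Icc (0 : ℝ) 1 := left_mem_Icc.mpr zero_le_one
  have hls : ContinuousOn (fun x => lifts (y0 x)) (C ×ˢ Icc (0 : ℝ) 1) :=
    continuous_lifts.comp_continuousOn hy0
  have hmap : MapsTo (fun p : ℝ × (W × ℝ) => p.2) (Icc (0 : ℝ) 1 ×ˢ (C ×ˢ Icc (0 : ℝ) 1))
      (C ×ˢ Icc (0 : ℝ) 1) := fun p hp => hp.2
  have hcl1 : ∀ a b : ℝ, Continuous fun p : ℝ × (W × ℝ) => cl (a * p.1 - b) := fun a b =>
    continuous_cl.comp (by fun_prop)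
  -- the pair homotopies
  set D : κ → ℝ × (W × ℝ) → V := fun i p =>
    (ck p.2 - vk) + E i (cl (3 * p.1), p.2) + (cl (3 * p.1 - 1) * (lifts (y0 p.2) * L)) • e2 -
      cl (3 * p.1 - 2) • (c i p.2 - v i) with hD
  have c1 : Continuous fun p : ℝ × (W × ℝ) => cl (3 * p.1) := continuous_cl.comp (by fun_prop)
  have hDc : ∀ i, ContinuousOn (D i) (Icc (0 : ℝ) 1 ×ˢ (C ×ˢ Icc (0 : ℝ) 1)) := by
    intro i
    have e1 : ContinuousOn (fun p : ℝ × (W × ℝ) => ck p.2)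
        (Icc (0 : ℝ) 1 ×ˢ (C ×ˢ Icc (0 : ℝ) 1)) := hck.comp continuous_snd.continuousOn hmap
    have e2' : ContinuousOn (fun p : ℝ × (W × ℝ) => c i p.2)
        (Icc (0 : ℝ) 1 ×ˢ (C ×ˢ Icc (0 : ℝ) 1)) := (hc i).comp continuous_snd.continuousOn hmap
    have e3 : ContinuousOn (fun p : ℝ × (W × ℝ) => lifts (y0 p.2))
        (Icc (0 : ℝ) 1 ×ˢ (C ×ˢ Icc (0 : ℝ) 1)) := hls.comp continuous_snd.continuousOn hmap
    have e4 : ContinuousOn (fun p : ℝ × (W × ℝ) => E i (cl (3 * p.1), p.2))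
        (Icc (0 : ℝ) 1 ×ˢ (C ×ˢ Icc (0 : ℝ) 1)) :=
      (hE i).comp (c1.prodMk continuous_snd).continuousOn fun p hp => ⟨cl_mem _, hp.2⟩
    have e5 := (hcl1 3 1).continuousOn (s := Icc (0 : ℝ) 1 ×ˢ (C ×ˢ Icc (0 : ℝ) 1))
    have e6 := (hcl1 3 2).continuousOn (s := Icc (0 : ℝ) 1 ×ˢ (C ×ˢ Icc (0 : ℝ) 1))
    exact (((e1.sub continuousOn_const).add e4).add
      ((e5.mul (e3.mul continuousOn_const)).smul continuousOn_const)).sub
        (e6.smul (e2'.sub continuousOn_const))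
  have hDr : ∀ i, ∀ t ∈ Icc (0 : ℝ) 1, ∀ y ∈ C, D i (t, (y, 0)) ∈ H := by
    intro i t ht y hy
    refine H.sub_mem (H.add_mem (H.add_mem (H.sub_mem (hckr y hy) hvk) (hEr i _ (cl_mem _) y hy))
      (H.smul_mem _ he2)) (H.smul_mem _ (H.sub_mem (hcr i y hy) (hv i)))
  have hD0 : ∀ i, ∀ p ∈ Icc (0 : ℝ) 1 ×ˢ (C ×ˢ Icc (0 : ℝ) 1), D i p ≠ 0 := by
    rintro i ⟨t, x⟩ ⟨ht, hx⟩
    show (ck x - vk) + E i (cl (3 * t), x) + (cl (3 * t - 1) * (lifts (y0 x) * L)) • e2 -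
      cl (3 * t - 2) • (c i x - v i) ≠ 0
    rcases le_total t (1 / 3) with h1 | h1
    · rw [cl_of_le (show 3 * t - 1 ≤ 0 by linarith), cl_of_le (show 3 * t - 2 ≤ 0 by linarith),
        zero_mul, zero_smul, zero_smul, add_zero, sub_zero]
      rcases le_total (y0 x) 0 with h2 | h2
      · rw [hEv i _ (cl_mem _) x hx h2, sub_add_sub_cancel, ← hc0 i x hx h2]
        exact sub_ne_zero.mpr (hkc i x hx)
      · rw [hck0 x hx (by linarith), sub_self, zero_add]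
        exact hE0 i (cl (3 * t), x) ⟨cl_mem _, hx⟩
    · rw [cl_of_ge (show 1 ≤ 3 * t by linarith), hE2 i x hx]
      rcases le_total t (2 / 3) with h2 | h2
      · rw [cl_of_le (show 3 * t - 2 ≤ 0 by linarith), zero_smul, sub_zero, sub_add_sub_cancel]
        rcases le_total (y0 x) (-(1 / 2)) with h3 | h3
        · rw [lifts_of_le h3, zero_mul, mul_zero, zero_smul, add_zero,
            ← hc0 i x hx (by linarith)]
          exact sub_ne_zero.mpr (hkc i x hx)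
        · rw [hck0 x hx h3]
          intro h
          refine hline i (cl (3 * t - 1) * (lifts (y0 x) * L)) ⟨?_, ?_⟩ ?_
          · exact mul_nonneg (cl_mem _).1 (mul_nonneg (lifts_mem _).1 hL)
          · calc cl (3 * t - 1) * (lifts (y0 x) * L) ≤ 1 * (1 * L) := by
                  refine mul_le_mul (cl_mem _).2 ?_ (mul_nonneg (lifts_mem _).1 hL) zero_le_one
                  exact mul_le_mul_of_nonneg_right (lifts_mem _).2 hL
              _ = L := by ring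
          · rw [← sub_eq_zero, ← h]; abel
      · rw [cl_of_ge (show 1 ≤ 3 * t - 1 by linarith), one_mul, sub_add_sub_cancel]
        rcases le_total (y0 x) 0 with h3 | h3
        · rw [hc0 i x hx h3, sub_self, smul_zero, sub_zero]
          rcases le_total (y0 x) (-(1 / 2)) with h4 | h4
          · rw [lifts_of_le h4, zero_mul, zero_smul, add_zero, ← hc0 i x hx h3]
            exact sub_ne_zero.mpr (hkc i x hx)
          · rw [hck0 x hx h4]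
            intro h
            refine hline i (lifts (y0 x) * L) ⟨mul_nonneg (lifts_mem _).1 hL, ?_⟩ ?_
            · calc lifts (y0 x) * L ≤ 1 * L := mul_le_mul_of_nonneg_right (lifts_mem _).2 hL
                _ = L := one_mul L
            · rw [← sub_eq_zero, ← h]; abel
        · rw [lifts_of_ge (by linarith), one_mul, hck0 x hx (by linarith)]
          intro h
          refine hfar i x hx (cl (3 * t - 2)) (cl_mem _) ?_
          rw [← sub_eq_zero, ← h]; abel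
  obtain ⟨F, f1, f2, f3, f4, f5, f6⟩ := strand_rim_mov (κ := κ) (W := W) (B := J) hn hV H hH hW hC
    hconv hne hJ hJC (fun i p => c i p.2)
    (fun i => (hc i).comp continuous_snd.continuousOn hmap)
    (fun z hz => hinj z.2 hz.2) (fun i t ht y hy => hcr i y hy)
    ck (fun x => ck x + (lifts (y0 x) * L) • e2) hck
    (hck.add ((hls.mul continuousOn_const).smul continuousOn_const)) hckr
    (fun y hy => H.add_mem (hckr y hy) (H.smul_mem _ he2))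
    (fun p => vk + (cl (3 * p.1 - 1) * (lifts (y0 p.2) * L)) • e2)
    (by
      have e3 : ContinuousOn (fun p : ℝ × (W × ℝ) => lifts (y0 p.2)) (Icc (0 : ℝ) 1 ×ˢ J) :=
        hls.comp continuous_snd.continuousOn fun p hp => hJC hp.2
      exact continuousOn_const.add (((hcl1 3 1).continuousOn.mul
        (e3.mul continuousOn_const)).smul continuousOn_const))
    (fun x hx => by
      show vk + (cl (3 * 0 - 1) * (lifts (y0 x) * L)) • e2 = ck x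
      rw [cl_of_le (by norm_num), zero_mul, zero_smul, add_zero, hckJ x hx])
    (fun x hx => by
      show vk + (cl (3 * 1 - 1) * (lifts (y0 x) * L)) • e2 = ck x + (lifts (y0 x) * L) • e2
      rw [cl_of_ge (by norm_num), one_mul, hckJ x hx])
    (fun t ht y hy => H.add_mem hvk (H.smul_mem _ he2))
    D hDc hD0
    (fun i x hx => by
      show (ck x - vk) + E i (cl (3 * 0), x) + (cl (3 * 0 - 1) * (lifts (y0 x) * L)) • e2 -
        cl (3 * 0 - 2) • (c i x - v i) = ck x - c i x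
      rw [cl_of_le (show (3 : ℝ) * 0 ≤ 0 by norm_num),
        cl_of_le (show (3 : ℝ) * 0 - 1 ≤ 0 by norm_num),
        cl_of_le (show (3 : ℝ) * 0 - 2 ≤ 0 by norm_num), hE1 i x hx, zero_mul, zero_smul, zero_smul]
      abel)
    (fun i x hx => by
      show (ck x - vk) + E i (cl (3 * 1), x) + (cl (3 * 1 - 1) * (lifts (y0 x) * L)) • e2 -
        cl (3 * 1 - 2) • (c i x - v i) = ck x + (lifts (y0 x) * L) • e2 - c i x
      rw [cl_of_ge (show 1 ≤ (3 : ℝ) * 1 by norm_num),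
        cl_of_ge (show 1 ≤ (3 : ℝ) * 1 - 1 by norm_num),
        cl_of_ge (show 1 ≤ (3 : ℝ) * 1 - 2 by norm_num), hE2 i x hx, one_mul, one_smul]
      abel)
    hDr
    (fun i t ht x hx => by
      show (ck x - vk) + E i (cl (3 * t), x) + (cl (3 * t - 1) * (lifts (y0 x) * L)) • e2 -
        cl (3 * t - 2) • (c i x - v i) = vk + (cl (3 * t - 1) * (lifts (y0 x) * L)) • e2 - c i x
      rw [hEJ i _ (cl_mem _) x hx, hckJ x hx, hcJ i x hx, sub_self (v i), smul_zero]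
      abel)
  exact ⟨F, f1, f2, f3, f4, f5, f6⟩

/-- **LIFT**, for a configuration `c i`, `i : ι`, with the strand `k` being lifted. -/
theorem lift_family {ι : Type*} [Fintype ι] [DecidableEq ι] (k : ι) {n : ℕ} (hn : 3 ≤ n)
    (hV : Module.finrank ℝ V = n + 1)
    (H : Submodule ℝ V) (hH : Module.finrank ℝ H = n) (hW : Module.finrank ℝ W + 1 ≤ n)
    {C : Set W} {J : Set (W × ℝ)} (hC : IsCompact C) (hconv : Convex ℝ C) (hne : C.Nonempty)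
    (hJ : IsClosed J) (hJC : J ⊆ C ×ˢ Icc (0 : ℝ) 1)
    (y0 : W × ℝ → ℝ) (hy0 : ContinuousOn y0 (C ×ˢ Icc (0 : ℝ) 1))
    (c : ι → W × ℝ → V) (hc : ∀ i, ContinuousOn (c i) (C ×ˢ Icc (0 : ℝ) 1))
    (hinj : ∀ x ∈ C ×ˢ Icc (0 : ℝ) 1, Function.Injective fun i => c i x)
    (hcr : ∀ i, ∀ y ∈ C, c i (y, 0) ∈ H)
    (v : ι → V) (hv : ∀ i, v i ∈ H) (hcJ : ∀ i, ∀ x ∈ J, c i x = v i)
    (hc0 : ∀ i, i ≠ k → ∀ x ∈ C ×ˢ Icc (0 : ℝ) 1, y0 x ≤ 0 → c i x = v i)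
    (hck0 : ∀ x ∈ C ×ˢ Icc (0 : ℝ) 1, -(1 / 2) ≤ y0 x → c k x = v k)
    (e2 : V) (he2 : e2 ∈ H) {L : ℝ} (hL : 0 ≤ L)
    (hline : ∀ i, i ≠ k → ∀ s ∈ Icc (0 : ℝ) L, v k + s • e2 ≠ v i)
    (hfar : ∀ i, i ≠ k → ∀ x ∈ C ×ˢ Icc (0 : ℝ) 1, ∀ u ∈ Icc (0 : ℝ) 1,
      v k + L • e2 ≠ v i + u • (c i x - v i))
    (E : ι → ℝ × (W × ℝ) → V)
    (hE : ∀ i, i ≠ k → ContinuousOn (E i) (Icc (0 : ℝ) 1 ×ˢ (C ×ˢ Icc (0 : ℝ) 1)))
    (hE0 : ∀ i, i ≠ k → ∀ p ∈ Icc (0 : ℝ) 1 ×ˢ (C ×ˢ Icc (0 : ℝ) 1), E i p ≠ 0)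
    (hE1 : ∀ i, i ≠ k → ∀ x ∈ C ×ˢ Icc (0 : ℝ) 1, E i (0, x) = v k - c i x)
    (hE2 : ∀ i, i ≠ k → ∀ x ∈ C ×ˢ Icc (0 : ℝ) 1, E i (1, x) = v k - v i)
    (hEr : ∀ i, i ≠ k → ∀ t ∈ Icc (0 : ℝ) 1, ∀ y ∈ C, E i (t, (y, 0)) ∈ H)
    (hEJ : ∀ i, i ≠ k → ∀ t ∈ Icc (0 : ℝ) 1, ∀ x ∈ J, E i (t, x) = v k - v i)
    (hEv : ∀ i, i ≠ k → ∀ t ∈ Icc (0 : ℝ) 1, ∀ x ∈ C ×ˢ Icc (0 : ℝ) 1, y0 x ≤ 0 →
      E i (t, x) = v k - v i) :
    ∃ F : ι → ℝ × (W × ℝ) → V,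
      (∀ i, ContinuousOn (F i) (Icc (0 : ℝ) 1 ×ˢ (C ×ˢ Icc (0 : ℝ) 1))) ∧
      (∀ i, ∀ x ∈ C ×ˢ Icc (0 : ℝ) 1, F i (0, x) = c i x) ∧
      (∀ i, i ≠ k → ∀ t x, F i (t, x) = c i x) ∧
      (∀ x ∈ C ×ˢ Icc (0 : ℝ) 1, F k (1, x) = c k x + (lifts (y0 x) * L) • e2) ∧
      (∀ i, ∀ t ∈ Icc (0 : ℝ) 1, ∀ y ∈ C, F i (t, (y, 0)) ∈ H) ∧
      (∀ t ∈ Icc (0 : ℝ) 1, ∀ x ∈ J,
        F k (t, x) = v k + (cl (3 * t - 1) * (lifts (y0 x) * L)) • e2) ∧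
      ∀ p ∈ Icc (0 : ℝ) 1 ×ˢ (C ×ˢ Icc (0 : ℝ) 1), Function.Injective fun i => F i p := by
  have hmap : MapsTo (fun p : ℝ × (W × ℝ) => p.2) (Icc (0 : ℝ) 1 ×ˢ (C ×ˢ Icc (0 : ℝ) 1))
      (C ×ˢ Icc (0 : ℝ) 1) := fun p hp => hp.2
  obtain ⟨F, f1, f2, f3, f4, f5, f6⟩ := lift_strand (κ := {i : ι // i ≠ k}) hn hV H hH hW hC hconv
    hne hJ hJC y0 hy0 (fun i => c i) (fun i => hc i)
    (fun x hx i j h => Subtype.ext (hinj x hx h)) (fun i => hcr i) (fun i => v i) (fun i => hv i)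
    (fun i => hcJ i) (fun i => hc0 i i.2) (c k) (hc k) (hcr k) (v k) (hv k) (hcJ k) hck0
    (fun i x hx h => i.2 (hinj x hx h).symm) e2 he2 hL (fun i => hline i i.2)
    (fun i => hfar i i.2) (fun i => E i) (fun i => hE i i.2) (fun i => hE0 i i.2)
    (fun i => hE1 i i.2) (fun i => hE2 i i.2) (fun i => hEr i i.2) (fun i => hEJ i i.2)
    (fun i => hEv i i.2)
  refine ⟨fun i p => if i = k then F p else c i p.2, fun i => ?_, fun i x hx => ?_,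
    fun i hi t x => if_neg hi, fun x hx => ?_, fun i t ht y hy => ?_, fun t ht x hx => ?_,
    fun p hp i j hij => ?_⟩
  · by_cases h : i = k
    · simp only [h, if_true]; exact f1
    · simp only [h, if_false]; exact (hc i).comp continuous_snd.continuousOn hmap
  · by_cases h : i = k
    · subst h; simp only [if_true]; exact f2 x hx
    · simp only [h, if_false]
  · simp only [if_true]; exact f3 x hx
  · by_cases h : i = k
    · subst h; simp only [if_true]; exact f4 t ht y hy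
    · simp only [h, if_false]; exact hcr i y hy
  · simp only [if_true]; exact f5 t ht x hx
  · by_cases hi : i = k <;> by_cases hj : j = k
    · rw [hi, hj]
    · simp only [hi, hj, if_true, if_false] at hij
      exact absurd hij (f6 p hp ⟨j, hj⟩)
    · simp only [hi, hj, if_true, if_false] at hij
      exact absurd hij.symm (f6 p hp ⟨i, hi⟩)
    · simp only [hi, hj, if_false] at hij
      exact hinj p.2 hp.2 hij

end H83

end Vale.Agent.P268.T
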