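import Vale.Agent.P268.T.NBr
import Vale.Agent.P268.T.H83.Lift

/-!
# P268, topological half: START2 (the motion of the sheet `none` and the lift, B6c)

The constant sheet `none` moves from its far position `-ρ e` to `v k + L e₂ - c e`, then the strand
`k` is lifted to `v k + L e₂` over `x 0 ≥ -1/4`; the other strands do not move.
-/

set_option linter.unusedSectionVars false

namespace Vale.Agent.P268.T

open Set Filter Topology Push Metric

namespace H83

/-! ### The chart `Pk d → (Fin (d + 2) → ℝ) × ℝ` -/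

section Chart

variable {d : ℕ}

/-- The chart of the cube: the last coordinate is the depth, in `[0,1]`. -/
noncomputable def tz (x : Pk d) : (Fin (d + 2) → ℝ) × ℝ :=
  (fun l => x l.castSucc, (x (Fin.last _) + 1) / 2)

/-- The inverse of the chart. -/
noncomputable def sz (z : (Fin (d + 2) → ℝ) × ℝ) : Pk d :=
  Fin.snoc (α := fun _ => ℝ) z.1 (2 * z.2 - 1)

@[simp] theorem sz_castSucc (z : (Fin (d + 2) → ℝ) × ℝ) (l : Fin (d + 2)) :
    sz z l.castSucc = z.1 l := Fin.snoc_castSucc (α := fun _ => ℝ) _ _ _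

@[simp] theorem sz_last (z : (Fin (d + 2) → ℝ) × ℝ) :
    sz z (Fin.last _) = 2 * z.2 - 1 := Fin.snoc_last (α := fun _ => ℝ) _ _

theorem sz_zero (z : (Fin (d + 2) → ℝ) × ℝ) : sz z 0 = z.1 0 := sz_castSucc z 0

theorem sz_tz (x : Pk d) : sz (tz x) = x := by
  funext l
  refine Fin.lastCases ?_ (fun l => ?_) l
  · rw [sz_last]; simp only [tz]; ring
  · rw [sz_castSucc]; rfl

theorem tz_sz (z : (Fin (d + 2) → ℝ) × ℝ) : tz (sz z) = z := by
  refine Prod.ext (funext fun l => ?_) ?_
  · show sz z l.castSucc = z.1 l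
    exact sz_castSucc z l
  · show (sz z (Fin.last _) + 1) / 2 = z.2
    rw [sz_last]; ring

theorem continuous_tz : Continuous (tz : Pk d → _) := by
  unfold tz
  fun_prop

theorem continuous_sz : Continuous (sz : _ → Pk d) := by
  refine continuous_pi fun l => ?_
  refine Fin.lastCases ?_ (fun l => ?_) l
  · simp only [sz_last]; fun_prop
  · simp only [sz_castSucc]; fun_prop

/-- The base box. -/
abbrev Cd (d : ℕ) : Set (Fin (d + 2) → ℝ) := closedBall 0 1

theorem tz_mem {x : Pk d} (hx : ‖x‖ ≤ 1) : tz x ∈ Cd d ×ˢ Icc (0 : ℝ) 1 := by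
  have h1 : ∀ l, |x l| ≤ 1 := fun l => by
    rw [← Real.norm_eq_abs]; exact (norm_le_pi_norm x l).trans hx
  refine ⟨?_, ?_, ?_⟩
  · rw [mem_closedBall_zero_iff, pi_norm_le_iff_of_nonneg zero_le_one]
    intro l
    rw [Real.norm_eq_abs]
    exact h1 _
  · have := (abs_le.mp (h1 (Fin.last _))).1
    show 0 ≤ (x (Fin.last _) + 1) / 2
    linarith
  · have := (abs_le.mp (h1 (Fin.last _))).2
    show (x (Fin.last _) + 1) / 2 ≤ 1
    linarith

theorem norm_sz_le {z : (Fin (d + 2) → ℝ) × ℝ} (hz : z ∈ Cd d ×ˢ Icc (0 : ℝ) 1) : ‖sz z‖ ≤ 1 := by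
  obtain ⟨h1, h2, h3⟩ := hz
  rw [mem_closedBall_zero_iff] at h1
  rw [pi_norm_le_iff_of_nonneg zero_le_one]
  intro l
  refine Fin.lastCases ?_ (fun l => ?_) l
  · rw [sz_last, Real.norm_eq_abs, abs_le]
    exact ⟨by linarith, by linarith⟩
  · rw [sz_castSucc]
    exact (norm_le_pi_norm z.1 l).trans h1

/-- Sides and top of the cube. -/
def IsFace (x : Pk d) : Prop :=
  (∃ l : Fin (d + 2), |x l.castSucc| = 1) ∨ x (Fin.last _) = 1

/-- Sides and top, in the chart. -/
def Jd (d : ℕ) : Set ((Fin (d + 2) → ℝ) × ℝ) :=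
  {z | z ∈ Cd d ×ˢ Icc (0 : ℝ) 1 ∧ (‖z.1‖ = 1 ∨ z.2 = 1)}

theorem isClosed_Jd : IsClosed (Jd d) := by
  have h1 : IsClosed (Cd d ×ˢ Icc (0 : ℝ) 1) := isClosed_closedBall.prod isClosed_Icc
  have h2 : IsClosed {z : (Fin (d + 2) → ℝ) × ℝ | ‖z.1‖ = 1 ∨ z.2 = 1} :=
    (isClosed_eq (by fun_prop) continuous_const).union
      (isClosed_eq (by fun_prop) continuous_const)
  exact h1.inter h2

theorem face_of_Jd {z : (Fin (d + 2) → ℝ) × ℝ} (hz : z ∈ Jd d) : IsFace (sz z) := by
  rcases hz.2 with h | h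
  · left
    by_contra hcon
    push Not at hcon
    have h1 : ∀ l, ‖z.1 l‖ < 1 := fun l => by
      have h2 := norm_le_pi_norm z.1 l
      rw [h] at h2
      refine lt_of_le_of_ne h2 fun h3 => hcon l ?_
      rw [sz_castSucc, ← Real.norm_eq_abs, h3]
    have h4 : ‖z.1‖ < 1 := (pi_norm_lt_iff one_pos).mpr h1
    exact absurd h h4.ne
  · right
    rw [sz_last, h]
    norm_num

theorem Jd_of_face {x : Pk d} (hx : ‖x‖ ≤ 1) (h : IsFace x) : tz x ∈ Jd d := by
  refine ⟨tz_mem hx, ?_⟩
  rcases h with ⟨l, hl⟩ | h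
  · left
    refine le_antisymm ?_ ?_
    · have := (tz_mem hx).1
      rwa [mem_closedBall_zero_iff] at this
    · rw [← hl, ← Real.norm_eq_abs]
      exact norm_le_pi_norm (tz x).1 l
  · right
    show (x (Fin.last _) + 1) / 2 = 1
    rw [h]; norm_num

/-- On the unit sphere: face or rim. -/
theorem face_or_rim {x : Pk d} (hx : ‖x‖ = 1) : IsFace x ∨ x (Fin.last _) = -1 := by
  obtain ⟨i, hi⟩ : ∃ i, |x i| = 1 := by
    by_contra hcon
    push Not at hcon
    have h1 : ∀ i, ‖x i‖ < 1 := fun i =>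
      lt_of_le_of_ne ((norm_le_pi_norm x i).trans hx.le) (hcon i)
    have h2 : ‖x‖ < 1 := (pi_norm_lt_iff one_pos).mpr h1
    exact absurd hx h2.ne
  rcases Fin.eq_castSucc_or_eq_last i with ⟨j, rfl⟩ | rfl
  · exact Or.inl (Or.inl ⟨j, hi⟩)
  · rcases (abs_eq zero_le_one).mp hi with h | h
    · exact Or.inl (Or.inr h)
    · exact Or.inr h

end Chart

/-! ### The homotopy -/

variable {d r : ℕ}

/-- The data after START2. -/
noncomputable def startB (k : Fin r) (b : Option (Fin r) → Pk d → Vk d) (e2 : Vk d) (L c : ℝ) :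
    Option (Fin r) → Pk d → Vk d
  | none, _ => (frk d).base r k + L • e2 - c • (frk d).e
  | some i, x => if i = k then b (some k) x + (lifts (x 0) * L) • e2 else b (some i) x

/-- The path of the sheet `none`. -/
noncomputable def nonePath (k : Fin r) (e2 : Vk d) (ρ L c t : ℝ) : Vk d :=
  -(ρ • (frk d).e) + (cl (4 * t) * L) • e2 +
    cl (4 * t - 1) • ((frk d).base r k - c • (frk d).e + ρ • (frk d).e)

theorem continuous_nonePath (k : Fin r) (e2 : Vk d) (ρ L c : ℝ) :
    Continuous (nonePath k e2 ρ L c) := by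
  have h1 : Continuous fun t : ℝ => cl (4 * t) := continuous_cl.comp (by fun_prop)
  have h2 : Continuous fun t : ℝ => cl (4 * t - 1) := continuous_cl.comp (by fun_prop)
  unfold nonePath
  fun_prop

theorem nonePath_zero (k : Fin r) (e2 : Vk d) (ρ L c : ℝ) :
    nonePath k e2 ρ L c 0 = -(ρ • (frk d).e) := by
  unfold nonePath
  rw [cl_of_le (by norm_num), cl_of_le (by norm_num)]
  simp

theorem nonePath_ge (k : Fin r) (e2 : Vk d) (ρ L c : ℝ) {t : ℝ} (ht : 1 / 2 ≤ t) :
    nonePath k e2 ρ L c t = (frk d).base r k + L • e2 - c • (frk d).e := by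
  unfold nonePath
  rw [cl_of_ge (by linarith), cl_of_ge (by linarith), one_mul, one_smul]
  abel

/-- **START2.** -/
theorem exists_start (k : Fin r) (b ν : Option (Fin r) → Pk d → Vk d)
    (hb : BData (frk d).h b ν) {ρ : ℝ} (hnone : ∀ x, b none x = -(ρ • (frk d).e))
    (hρ : ∀ i x, ‖x‖ ≤ 1 → ‖b (some i) x‖ < ρ)
    (hJ : ∀ i x, ‖x‖ ≤ 1 → IsFace x → b (some i) x = (frk d).base r i)
    (h0 : ∀ i, i ≠ k → ∀ x, ‖x‖ ≤ 1 → x 0 ≤ 0 → b (some i) x = (frk d).base r i)
    (hk : ∀ x, ‖x‖ ≤ 1 → -(1 / 2) ≤ x 0 → b (some k) x = (frk d).base r k)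
    (E : Fin r → ℝ × Pk d → Vk d)
    (hE : ∀ i, i ≠ k → ContinuousOn (E i) (Icc (0 : ℝ) 1 ×ˢ closedBall 0 1))
    (hE0 : ∀ i, i ≠ k → ∀ t ∈ Icc (0 : ℝ) 1, ∀ x, ‖x‖ ≤ 1 → E i (t, x) ≠ 0)
    (hE1 : ∀ i, i ≠ k → ∀ x, ‖x‖ ≤ 1 → E i (0, x) = (frk d).base r k - b (some i) x)
    (hE2 : ∀ i, i ≠ k → ∀ x, ‖x‖ ≤ 1 → E i (1, x) = (frk d).base r k - (frk d).base r i)
    (hEr : ∀ i, i ≠ k → ∀ t ∈ Icc (0 : ℝ) 1, ∀ x, ‖x‖ ≤ 1 → x (Fin.last _) = -1 →
      inner ℝ (frk d).h (E i (t, x)) = 0)
    (hEJ : ∀ i, i ≠ k → ∀ t ∈ Icc (0 : ℝ) 1, ∀ x, ‖x‖ ≤ 1 → IsFace x →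
      E i (t, x) = (frk d).base r k - (frk d).base r i)
    (hEv : ∀ i, i ≠ k → ∀ t ∈ Icc (0 : ℝ) 1, ∀ x, ‖x‖ ≤ 1 → x 0 ≤ 0 →
      E i (t, x) = (frk d).base r k - (frk d).base r i)
    {e2 : Vk d} (he2 : ‖e2‖ = 1) (he2h : inner ℝ (frk d).h e2 = 0)
    (he2e : inner ℝ (frk d).e e2 = 0) {L c : ℝ} (hL : ρ ≤ L) (hc : c ≠ 0) :
    ∃ B : ℝ → Option (Fin r) → Pk d → Vk d,
      BFam (Icc (0 : ℝ) 1) (frk d).h B (fun _ => ν) ∧ B 0 = b ∧ B 1 = startB k b e2 L c := by
  classical
  set H : Submodule ℝ (Vk d) := (ℝ ∙ (frk d).h)ᗮ with hHdef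
  have memH : ∀ v : Vk d, v ∈ H ↔ inner ℝ (frk d).h v = 0 := fun v =>
    Submodule.mem_orthogonal_singleton_iff_inner_right
  have hhne : (frk d).h ≠ 0 := by
    intro h
    have := (frk d).hh
    rw [h, norm_zero] at this
    exact zero_ne_one this
  have hV : Module.finrank ℝ (Vk d) = (d + 3) + 1 := by simp
  have hHr : Module.finrank ℝ H = d + 3 := by
    have : Fact (Module.finrank ℝ (Vk d) = (d + 3) + 1) := ⟨hV⟩
    exact Submodule.finrank_orthogonal_span_singleton hhne
  have heH : (frk d).e ∈ H := (memH _).mpr (frk d).heh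
  have hbaseH : ∀ i, (frk d).base r i ∈ H := fun i => H.smul_mem _ heH
  have he2H : e2 ∈ H := (memH _).mpr he2h
  have hbe2 : ∀ i, inner ℝ ((frk d).base r i) e2 = 0 := fun i => by
    show inner ℝ (((i : ℝ) + 1) • (frk d).e) e2 = 0
    rw [inner_smul_left, he2e, mul_zero]
  have hee2 : inner ℝ e2 e2 = (1 : ℝ) := by rw [real_inner_self_eq_norm_sq, he2, one_pow]
  have hee : inner ℝ (frk d).e (frk d).e = (1 : ℝ) := by
    rw [real_inner_self_eq_norm_sq, (frk d).he, one_pow]
  -- facts on the data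
  have hbc : ∀ a, ContinuousOn (b a) (closedBall 0 1) := fun a =>
    (hb.cb a).comp (f := fun x : Pk d => ((), x)) (by fun_prop) fun x hx => ⟨mem_univ _, hx⟩
  have hbin : ∀ x, ‖x‖ ≤ 1 → Function.Injective fun a => b a x := fun x hx =>
    hb.inj () (mem_univ _) x (by rwa [mem_closedBall_zero_iff])
  have hbh : ∀ a x, ‖x‖ = 1 → inner ℝ (b a x) (frk d).h = 0 := fun a x hx =>
    hb.bh () (mem_univ _) a x hx
  have hρ0 : 0 < ρ := (norm_nonneg _).trans_lt (hρ k 0 (by simp))
  have hL0 : 0 ≤ L := hρ0.le.trans hL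
  have hrimb : ∀ a (y : Fin (d + 2) → ℝ), y ∈ Cd d → b a (sz (y, 0)) ∈ H := by
    intro a y hy
    rw [memH, real_inner_comm]
    refine hbh a _ ?_
    refine le_antisymm (norm_sz_le ⟨hy, le_rfl, zero_le_one⟩) ?_
    have h1 := norm_le_pi_norm (sz (y, 0)) (Fin.last _)
    rw [sz_last, Real.norm_eq_abs] at h1
    have h2 : |2 * (0 : ℝ) - 1| = 1 := by norm_num
    rwa [h2] at h1
  have hsum : ∀ t, inner ℝ ((frk d).base r k + t • e2) e2 = (t : ℝ) := fun t => by
    rw [inner_add_left, hbe2, inner_smul_left, hee2]; simp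
  -- the constant sheet
  set n1 : Vk d := (frk d).base r k + L • e2 - c • (frk d).e with hn1
  have hn1e2 : inner ℝ n1 e2 = L := by
    rw [hn1, inner_sub_left, hsum, inner_smul_left, he2e, mul_zero, sub_zero]
  have hn1H : n1 ∈ H := H.sub_mem (H.add_mem (hbaseH k) (H.smul_mem _ he2H)) (H.smul_mem _ heH)
  have hble : ∀ i x, ‖x‖ ≤ 1 → inner ℝ (b (some i) x) e2 < ρ := fun i x hx => by
    have h1 := real_inner_le_norm (b (some i) x) e2
    rw [he2, mul_one] at h1
    exact h1.trans_lt (hρ i x hx)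
  have hn1b : ∀ i x, ‖x‖ ≤ 1 → n1 ≠ b (some i) x := fun i x hx h => by
    have h1 := hble i x hx
    rw [← h, hn1e2] at h1
    linarith
  have hbaseρ : ∀ i, inner ℝ ((frk d).base r i) e2 = 0 := hbe2
  -- the data for the lift
  let cc : Option (Fin r) → (Fin (d + 2) → ℝ) × ℝ → Vk d := fun a z =>
    a.elim n1 fun i => b (some i) (sz z)
  let vv : Option (Fin r) → Vk d := fun a => a.elim n1 fun i => (frk d).base r i
  have hmaps : MapsTo (sz : _ → Pk d) (Cd d ×ˢ Icc (0 : ℝ) 1) (closedBall 0 1) := fun z hz => by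
    rw [mem_closedBall_zero_iff]; exact norm_sz_le hz
  have hcc : ∀ a, ContinuousOn (cc a) (Cd d ×ˢ Icc (0 : ℝ) 1) := by
    rintro (_ | i)
    · exact continuousOn_const
    · exact (hbc (some i)).comp continuous_sz.continuousOn hmaps
  have hcinj : ∀ z ∈ Cd d ×ˢ Icc (0 : ℝ) 1, Function.Injective fun a => cc a z := by
    rintro z hz (_ | i) (_ | j) hij
    · rfl
    · exact absurd hij (hn1b j _ (norm_sz_le hz))
    · exact absurd hij.symm (hn1b i _ (norm_sz_le hz))
    · exact hbin _ (norm_sz_le hz) hij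
  have hcr : ∀ a, ∀ y ∈ Cd d, cc a (y, 0) ∈ H := by
    rintro (_ | i) y hy
    · exact hn1H
    · exact hrimb _ y hy
  have hvH : ∀ a, vv a ∈ H := by
    rintro (_ | i)
    · exact hn1H
    · exact hbaseH i
  have hcJ : ∀ a, ∀ z ∈ Jd d, cc a z = vv a := by
    rintro (_ | i) z hz
    · rfl
    · exact hJ i _ (norm_sz_le hz.1) (face_of_Jd hz)
  have hc0 : ∀ a, a ≠ some k → ∀ z ∈ Cd d ×ˢ Icc (0 : ℝ) 1, z.1 0 ≤ 0 → cc a z = vv a := by
    rintro (_ | i) hi z hz hz0
    · rfl
    · exact h0 i (fun h => hi (congrArg some h)) _ (norm_sz_le hz) (by rw [sz_zero]; exact hz0)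
  have hck : ∀ z ∈ Cd d ×ˢ Icc (0 : ℝ) 1, -(1 / 2) ≤ z.1 0 → cc (some k) z = vv (some k) := by
    intro z hz hz0
    exact hk _ (norm_sz_le hz) (by rw [sz_zero]; exact hz0)
  have hline : ∀ a, a ≠ some k → ∀ s ∈ Icc (0 : ℝ) L, vv (some k) + s • e2 ≠ vv a := by
    rintro (_ | i) hi s hs h
    · -- the component along `e`
      have h1 : inner ℝ ((frk d).base r k + s • e2) (frk d).e =
          inner ℝ ((frk d).base r k + L • e2 - c • (frk d).e) (frk d).e := by
        have : (frk d).base r k + s • e2 = n1 := h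
        rw [this]
      rw [inner_sub_left, inner_add_left, inner_add_left, inner_smul_left, inner_smul_left,
        inner_smul_left, real_inner_comm (frk d).e e2, he2e, hee] at h1
      simp only [conj_trivial, mul_zero, mul_one, add_zero] at h1
      exact hc (by linarith)
    · have h2 : inner ℝ (vv (some k) + s • e2) e2 = (0 : ℝ) := by rw [h]; exact hbe2 i
      have h3 : s = 0 := by
        have h4 : inner ℝ ((frk d).base r k + s • e2) e2 = (0 : ℝ) := h2
        rwa [hsum] at h4
      rw [h3, zero_smul, add_zero] at h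
      exact hi (congrArg some ((frk d).base_inj r h).symm)
  have hfar : ∀ a, a ≠ some k → ∀ z ∈ Cd d ×ˢ Icc (0 : ℝ) 1, ∀ u ∈ Icc (0 : ℝ) 1,
      vv (some k) + L • e2 ≠ vv a + u • (cc a z - vv a) := by
    rintro (_ | i) hi z hz u hu h
    · have h1 : vv (some k) + L • e2 = vv none := by
        rw [h]
        show n1 + u • (n1 - n1) = n1
        rw [sub_self, smul_zero, add_zero]
      exact hline none hi L ⟨hL0, le_rfl⟩ h1
    · have h1 : inner ℝ (vv (some k) + L • e2) e2 = L := hsum L
      rw [h] at h1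
      have h2 : inner ℝ ((frk d).base r i + u • (b (some i) (sz z) - (frk d).base r i)) e2 = L := h1
      rw [inner_add_left, hbe2, inner_smul_left, inner_sub_left, hbe2] at h2
      simp only [conj_trivial, zero_add, sub_zero] at h2
      have h3 := hble i (sz z) (norm_sz_le hz)
      have h4 : u * inner ℝ (b (some i) (sz z)) e2 < L := by
        rcases eq_or_lt_of_le hu.1 with h5 | h5
        · rw [← h5, zero_mul]; exact hρ0.trans_le hL
        · calc u * inner ℝ (b (some i) (sz z)) e2 < u * ρ := mul_lt_mul_of_pos_left h3 h5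
            _ ≤ 1 * ρ := mul_le_mul_of_nonneg_right hu.2 hρ0.le
            _ = ρ := one_mul _
            _ ≤ L := hL
      linarith
  let EE : Option (Fin r) → ℝ × ((Fin (d + 2) → ℝ) × ℝ) → Vk d := fun a p =>
    a.elim ((frk d).base r k - n1) fun i => E i (p.1, sz p.2)
  obtain ⟨F, f1, f2, f3, f4, f5, f6, f7⟩ := lift_family (some k) (W := Fin (d + 2) → ℝ)
    (n := d + 3) (by omega) hV H hHr (by simp) (C := Cd d) (J := Jd d)
    (isCompact_closedBall _ _) (convex_closedBall _ _) ⟨0, by simp⟩ isClosed_Jd (fun z hz => hz.1)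
    (fun z => z.1 0) (by fun_prop) cc hcc hcinj hcr vv hvH hcJ hc0 hck e2 he2H hL0 hline hfar
    EE
    (by
      rintro (_ | i) hi
      · exact continuousOn_const
      · exact (hE i (fun h => hi (congrArg some h))).comp
          (f := fun p : ℝ × ((Fin (d + 2) → ℝ) × ℝ) => (p.1, sz p.2))
          (continuous_fst.prodMk (continuous_sz.comp continuous_snd)).continuousOn
          fun p hp => ⟨hp.1, hmaps hp.2⟩)
    (by
      rintro (_ | i) hi p hp
      · show (frk d).base r k - n1 ≠ 0
        have := hline none hi 0 ⟨le_rfl, hL0⟩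
        rw [zero_smul, add_zero] at this
        exact sub_ne_zero.mpr this
      · exact hE0 i (fun h => hi (congrArg some h)) _ hp.1 _ (norm_sz_le hp.2))
    (by
      rintro (_ | i) hi z hz
      · rfl
      · exact hE1 i (fun h => hi (congrArg some h)) _ (norm_sz_le hz))
    (by
      rintro (_ | i) hi z hz
      · rfl
      · exact hE2 i (fun h => hi (congrArg some h)) _ (norm_sz_le hz))
    (by
      rintro (_ | i) hi t ht y hy
      · exact H.sub_mem (hbaseH k) hn1H
      · rw [memH]
        refine hEr i (fun h => hi (congrArg some h)) t ht _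
          (norm_sz_le ⟨hy, le_rfl, zero_le_one⟩) ?_
        rw [sz_last]; norm_num)
    (by
      rintro (_ | i) hi t ht z hz
      · rfl
      · exact hEJ i (fun h => hi (congrArg some h)) t ht _ (norm_sz_le hz.1) (face_of_Jd hz))
    (by
      rintro (_ | i) hi t ht z hz hz0
      · rfl
      · exact hEv i (fun h => hi (congrArg some h)) t ht _ (norm_sz_le hz)
          (by rw [sz_zero]; exact hz0))
  -- the family
  let B : ℝ → Option (Fin r) → Pk d → Vk d := fun t a x =>
    if ‖x‖ ≤ 1 then a.elim (nonePath k e2 ρ L c t) fun i => F (some i) (cl (2 * t - 1), tz x)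
    else if t = 1 then startB k b e2 L c a x else b a x
  have Bin : ∀ t a x, ‖x‖ ≤ 1 → B t a x =
      a.elim (nonePath k e2 ρ L c t) fun i => F (some i) (cl (2 * t - 1), tz x) :=
    fun t a x hx => if_pos hx
  have hFlow : ∀ i x, ‖x‖ ≤ 1 → ∀ t : ℝ, t ≤ 1 / 2 →
      F (some i) (cl (2 * t - 1), tz x) = b (some i) x := by
    intro i x hx t ht
    rw [cl_of_le (by linarith), f2 (some i) _ (tz_mem hx)]
    show b (some i) (sz (tz x)) = b (some i) x
    rw [sz_tz]
  have hccl : Continuous fun q : ℝ × Pk d => cl (2 * q.1 - 1) := continuous_cl.comp (by fun_prop)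
  refine ⟨B, ⟨fun a => ?_, fun a => ?_, fun t _ => hb.nn () (mem_univ _), fun t ht x hx => ?_,
    fun t ht a x hx => ?_, fun t _ => hb.nh () (mem_univ _)⟩, ?_, ?_⟩
  · -- continuity
    cases a with
    | none =>
      refine ((continuous_nonePath k e2 ρ L c).comp continuous_fst).continuousOn.congr fun q hq => ?_
      have := hq.2
      rw [mem_closedBall_zero_iff] at this
      exact Bin q.1 none q.2 this
    | some i =>
      have e1 : ContinuousOn (fun q : ℝ × Pk d => F (some i) (cl (2 * q.1 - 1), tz q.2))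
          (Icc (0 : ℝ) 1 ×ˢ closedBall 0 1) := by
        refine (f1 (some i)).comp (f := fun q : ℝ × Pk d => (cl (2 * q.1 - 1), tz q.2))
          (hccl.prodMk (continuous_tz.comp continuous_snd)).continuousOn fun q hq => ?_
        have := hq.2
        rw [mem_closedBall_zero_iff] at this
        exact ⟨cl_mem _, tz_mem this⟩
      refine e1.congr fun q hq => ?_
      have := hq.2
      rw [mem_closedBall_zero_iff] at this
      exact Bin q.1 (some i) q.2 this
  · exact (hb.cn a).comp (f := fun q : ℝ × Pk d => ((), q.2)) (by fun_prop)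
      fun q hq => ⟨mem_univ _, hq.2⟩
  · -- injectivity
    rw [mem_closedBall_zero_iff] at hx
    have key : ∀ i, nonePath k e2 ρ L c t ≠ F (some i) (cl (2 * t - 1), tz x) := by
      intro i
      rcases le_total t (1 / 2) with h1 | h1
      · rw [hFlow i x hx t h1]
        intro h
        rcases le_total t (1 / 4) with h2 | h2
        · have h3 : inner ℝ (nonePath k e2 ρ L c t) (-(frk d).e) = ρ := by
            unfold nonePath
            rw [cl_of_le (show 4 * t - 1 ≤ 0 by linarith), zero_smul, add_zero, inner_add_left,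
              inner_neg_left, inner_neg_right, inner_smul_left, inner_smul_left, hee,
              inner_neg_right, real_inner_comm (frk d).e e2, he2e]
            simp
          have h4 := real_inner_le_norm (b (some i) x) (-(frk d).e)
          rw [norm_neg, (frk d).he, mul_one, ← h, h3, h] at h4
          exact absurd (hρ i x hx) (not_lt.mpr h4)
        · have h3 : inner ℝ (nonePath k e2 ρ L c t) e2 = L := by
            unfold nonePath
            rw [cl_of_ge (show 1 ≤ 4 * t by linarith), inner_add_left, inner_add_left,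
              inner_neg_left, inner_smul_left, inner_smul_left, inner_smul_left, inner_add_left,
              inner_sub_left, inner_smul_left, inner_smul_left, hbe2, he2e, hee2]
            simp
          have h4 := hble i x hx
          rw [← h, h3] at h4
          linarith
      · rw [nonePath_ge k e2 ρ L c h1]
        have h2 := f7 (cl (2 * t - 1), tz x) ⟨cl_mem _, tz_mem hx⟩
        intro h
        have h3 : F none (cl (2 * t - 1), tz x) = F (some i) (cl (2 * t - 1), tz x) := by
          rw [f3 none (by simp)]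
          exact h
        exact absurd (h2 h3) (by simp)
    intro a a' h
    simp only [Bin t _ x hx] at h
    cases a with
    | none =>
      cases a' with
      | none => rfl
      | some j => exact absurd h (key j)
    | some i =>
      cases a' with
      | none => exact absurd h.symm (key i)
      | some j => exact f7 (cl (2 * t - 1), tz x) ⟨cl_mem _, tz_mem hx⟩ h
  · -- the boundary
    rw [Bin t a x hx.le, real_inner_comm, ← memH]
    cases a with
    | none =>
      show nonePath k e2 ρ L c t ∈ H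
      exact H.add_mem (H.add_mem (H.neg_mem (H.smul_mem _ heH)) (H.smul_mem _ he2H))
        (H.smul_mem _ (H.add_mem (H.sub_mem (hbaseH k) (H.smul_mem _ heH)) (H.smul_mem _ heH)))
    | some i =>
      show F (some i) (cl (2 * t - 1), tz x) ∈ H
      rcases face_or_rim hx with h | h
      · -- face: the value is explicit
        by_cases hi : i = k
        · subst hi
          rw [f6 _ (cl_mem _) _ (Jd_of_face hx.le h)]
          exact H.add_mem (hbaseH i) (H.smul_mem _ he2H)
        · rw [f3 (some i) (fun h => hi (Option.some_injective _ h))]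
          show b (some i) (sz (tz x)) ∈ H
          rw [sz_tz, memH, real_inner_comm]
          exact hbh _ x hx
      · have e1 : tz x = ((tz x).1, 0) := Prod.ext rfl (by
          show (x (Fin.last _) + 1) / 2 = 0
          rw [h]; norm_num)
        rw [e1]
        exact f5 (some i) _ (cl_mem _) _ (tz_mem hx.le).1
  · -- start
    funext a x
    by_cases hx : ‖x‖ ≤ 1
    · rw [Bin 0 a x hx]
      cases a with
      | none => exact (nonePath_zero k e2 ρ L c).trans (hnone x).symm
      | some i => exact hFlow i x hx 0 (by norm_num)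
    · show (if ‖x‖ ≤ 1 then _ else if (0 : ℝ) = 1 then _ else b a x) = b a x
      rw [if_neg hx, if_neg (by norm_num)]
  · -- end
    funext a x
    by_cases hx : ‖x‖ ≤ 1
    · rw [Bin 1 a x hx]
      cases a with
      | none => exact nonePath_ge k e2 ρ L c (by norm_num)
      | some i =>
        show F (some i) (cl (2 * 1 - 1), tz x) = if i = k then _ else _
        by_cases hi : i = k
        · subst hi
          rw [if_pos rfl, cl_of_ge (by norm_num), f4 _ (tz_mem hx)]
          show b (some i) (sz (tz x)) + (lifts (x 0) * L) • e2 = _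
          rw [sz_tz]
        · rw [if_neg hi, f3 (some i) (fun h => hi (Option.some_injective _ h))]
          show b (some i) (sz (tz x)) = _
          rw [sz_tz]
    · show (if ‖x‖ ≤ 1 then _ else if (1 : ℝ) = 1 then startB k b e2 L c a x else b a x) = _
      rw [if_neg hx, if_pos rfl]

end H83

end Vale.Agent.P268.T
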