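import Vale.Agent.P268.T.H277.Data
import Vale.Agent.P268.T.H83.Start
import Vale.Agent.P268.T.H839.Sd

/-!
# P268, topological half, block B6c: the start of the slide

`start2_veq`: the normal form of the product `transAt 0 b b'` (`b` moves only `k`, `b'` fixes `k`
and all its pair classes with `k` vanish) is equivalent to the one of the data `c1` after the lift.
-/

set_option linter.unusedSectionVars false

namespace Vale.Agent.P268.T.H83

open scoped unitInterval Topology Topology.Homotopy RealInnerProductSpace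
open Set Metric Vale.Agent.P268.H288 Vale.Agent.P268.T.A109 Vale.Agent.P268.T.H839
  Vale.Agent.P268.T.H277

variable {d r : ℕ}

variable {b b' : (frk d).BrL (Fin (d + 2)) r} {j k : Fin r}

/-- The start data are bounded by `ρ`. -/
theorem norm_stB_lt (hb : (frk d).OnlyMoves k b) (hb' : (frk d).Fixed k b') {ρ : ℝ}
    (hρ : ∀ (i : Fin r) (q : (Fin (d + 2) → I) × I),
      ‖(PP.ofGL (GenLoop.transAt 0 b b') q).1.1 i‖ < ρ) (i : Fin r) (x : Pk d) :
    ‖stB (frk d) b b' ρ k (some i) x‖ < ρ := by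
  rw [← (win_eq (frk d) hb hb' ρ).1]
  exact hρ i _

/-- The end of START2 is the data `c1`. -/
theorem startB_eq_c1 (c : Option (Fin r) → Pk d → Vk d) (ρ : ℝ) (j k : Fin r) (e2 : Vk d)
    (L s : ℝ) : startB k c e2 L (2 * s * ((k : ℝ) - (j : ℝ))) =
      c1 c (stV d r ρ) none (some j) (some k) e2 L s := by
  have hd : (2 * s * ((k : ℝ) - (j : ℝ))) • (frk d).e =
      (2 * s) • (stV d r ρ (some k) - stV d r ρ (some j)) := by
    show _ = (2 * s) • ((((k : ℝ) + 1) • (frk d).e) - (((j : ℝ) + 1) • (frk d).e))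
    module
  funext a x
  cases a with
  | none =>
    show (frk d).base r k + L • e2 - (2 * s * ((k : ℝ) - (j : ℝ))) • (frk d).e = _
    rw [hd]
    unfold c1
    rw [if_neg (Option.some_ne_none k).symm, if_pos rfl]
    rfl
  | some i =>
    show (if i = k then c (some k) x + (lifts (x 0) * L) • e2 else c (some i) x) = _
    unfold c1
    by_cases hi : i = k
    · subst hi
      rw [if_pos rfl, if_pos rfl]
    · rw [if_neg hi, if_neg (fun h => hi (Option.some_injective _ h)),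
        if_neg (Option.some_ne_none i)]

/-- **The start of the slide, as a family.** -/
theorem start2_fam (hb : (frk d).OnlyMoves k b) (hb' : (frk d).Fixed k b')
    (hcl : ∀ i, i ≠ k → (frk d).clsU (Fin (d + 2)) i k (hcl b') = 1) (hjk : j ≠ k) {ρ : ℝ}
    (hρ : ∀ (i : Fin r) (q : (Fin (d + 2) → I) × I),
      ‖(PP.ofGL (GenLoop.transAt 0 b b') q).1.1 i‖ < ρ)
    {e2 : Vk d} (he2 : ‖e2‖ = 1) (he2h : inner ℝ (frk d).h e2 = 0)
    (he2e : inner ℝ (frk d).e e2 = 0) {L s : ℝ} (hL : ρ ≤ L) (hs : 0 < s) :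
    ∃ B : ℝ → Option (Fin r) → Pk d → Vk d,
      BFam (Icc (0 : ℝ) 1) (frk d).h B (fun _ => stN (frk d) b b' k) ∧
      B 0 = stB (frk d) b b' ρ k ∧
      B 1 = c1 (stB (frk d) b b' ρ k) (stV d r ρ) none (some j) (some k) e2 L s := by
  choose E hE0 hE1 hE2 hEv hEs hEt hEr using fun (i : {i // i ≠ k}) =>
    null_cube (frk d) i.2 hb' (hcl i.1 i.2) ρ
  have hface : ∀ i : {i // i ≠ k}, ∀ (t : ℝ) (x : Pk d), IsFace x → E i (t, x) =
      (frk d).base r k - (frk d).base r i.1 := by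
    rintro i t x (⟨l, hl⟩ | h)
    · exact hEs i t x ⟨l.castSucc, (Fin.castSucc_lt_last l).ne, hl⟩
    · exact hEt i t x h
  have hfc : ∀ x : Pk d, IsFace x → Face x := by
    rintro x (⟨l, hl⟩ | h)
    · exact Or.inl ⟨l.castSucc, (Fin.castSucc_lt_last l).ne, hl⟩
    · exact Or.inr h
  have hkj : (k : ℝ) - (j : ℝ) ≠ 0 := by
    intro h
    have h1 : (k : ℝ) = (j : ℝ) := by linarith
    exact hjk (Fin.ext (by exact_mod_cast h1.symm))
  obtain ⟨B, h1, h2, h3⟩ := exists_start k (stB (frk d) b b' ρ k) (stN (frk d) b b' k)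
    (start_bData hb hb' hρ) (ρ := ρ) (fun _ => rfl)
    (fun i x _ => norm_stB_lt hb hb' hρ i x)
    (fun i x _ hx => (stB_face b b' ρ k (some i) (hfc x hx)).1)
    (fun i hi x _ hx => (stB_left (frk d) b b' ρ hi (by linarith)).1)
    (fun x _ hx => (stB_k_right (frk d) b b' ρ k (by linarith)).1)
    (fun i p => if hi : i ≠ k then E ⟨i, hi⟩ p else 0)
    (fun i hi => by
      simp only [dif_pos hi]
      exact (E ⟨i, hi⟩).continuous.continuousOn)
    (fun i hi t _ x _ => by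
      simp only [dif_pos hi]
      exact hE0 ⟨i, hi⟩ _)
    (fun i hi x _ => by
      simp only [dif_pos hi]
      exact hE1 ⟨i, hi⟩ x)
    (fun i hi x _ => by
      simp only [dif_pos hi]
      exact hE2 ⟨i, hi⟩ x)
    (fun i hi t _ x _ hx => by
      simp only [dif_pos hi]
      exact hEr ⟨i, hi⟩ t x hx.le)
    (fun i hi t _ x _ hx => by
      simp only [dif_pos hi]
      exact hface ⟨i, hi⟩ t x hx)
    (fun i hi t _ x _ hx => by
      simp only [dif_pos hi]
      exact hEv ⟨i, hi⟩ t x (by linarith))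
    he2 he2h he2e (L := L) (c := 2 * s * ((k : ℝ) - (j : ℝ))) hL
    (mul_ne_zero (by linarith) hkj)
  refine ⟨B, h1, h2, ?_⟩
  rw [h3]
  exact startB_eq_c1 _ ρ j k e2 L s

/-- **The start of the slide.** -/
theorem start2_veq (hhom : BlockHom) (hadm : BlockAdm) (hb : (frk d).OnlyMoves k b)
    (hb' : (frk d).Fixed k b')
    (hcl : ∀ i, i ≠ k → (frk d).clsU (Fin (d + 2)) i k (hcl b') = 1) (hjk : j ≠ k) {ρ : ℝ}
    (hρ : ∀ (i : Fin r) (q : (Fin (d + 2) → I) × I),
      ‖(PP.ofGL (GenLoop.transAt 0 b b') q).1.1 i‖ < ρ)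
    {e2 : Vk d} (he2 : ‖e2‖ = 1) (he2h : inner ℝ (frk d).h e2 = 0)
    (he2e : inner ℝ (frk d).e e2 = 0) {L s : ℝ} (hL : ρ ≤ L) (hs : 0 < s)
    {x : NBr d r} (hx : H288.hcl x.p = H288.hcl (GenLoop.transAt 0 b b')) {ε R M : ℝ}
    (ha : Adm ε R M (c1 (stB (frk d) b b' ρ k) (stV d r ρ) none (some j) (some k) e2 L s)) :
    VEq (Nfb d r x) (NN (frk d).h ε R M
      (c1 (stB (frk d) b b' ρ k) (stV d r ρ) none (some j) (some k) e2 L s)
      (stN (frk d) b b' k)) := by
  obtain ⟨B, h1, h2, h3⟩ := start2_fam (j := j) hb hb' hcl hjk hρ he2 he2h he2e hL hs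
  obtain ⟨ε₁, R₁, M₁, h4⟩ := hadm d _ _ _ (start_bData hb hb' hρ)
  have h5 := start_veq hhom hadm hb hb' hρ hx h4
  have h6 := hhom d (Option (Fin r)) B (fun _ => stN (frk d) b b' k) ε₁ R₁ M₁ ε R M h1
    (by rw [h2]; exact h4) (by rw [h3]; exact ha)
  rw [h2, h3] at h6
  exact h5.trans h6

end Vale.Agent.P268.T.H83
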