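import Vale.Agent.P268.T.H277.Facts
import Vale.Agent.P268.T.H839.Adir
import Vale.Agent.P268.T.R996.End

/-!
# P268, topological half, block B6c: the end data of the slide

`endHyp_c4`: 277's data `c4`, `n4` for 839's start data satisfy 996's `EndHyp`.
-/

namespace Vale.Agent.P268.T.H83

open scoped unitInterval Topology Topology.Homotopy RealInnerProductSpace
open Set Metric Vale.Agent.P268.H288 Vale.Agent.P268.T.A109 Vale.Agent.P268.T.H839
  Vale.Agent.P268.T.H277

/-- The two forms of the reflection. -/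
theorem rfl'_dir {V : Type*} [NormedAddCommGroup V] [InnerProductSpace ℝ V] {w : V} (hw : w ≠ 0)
    (x : V) : rfl' (‖w‖⁻¹ • w) x = rf w x := by
  have h1 : ‖w‖ ≠ 0 := norm_ne_zero_iff.mpr hw
  unfold rfl' rf
  rw [inner_smul_right, smul_smul, real_inner_self_eq_norm_sq]
  congr 2
  field_simp

variable {d r : ℕ} {b c : (frk d).BrL (Fin (d + 2)) r} {j k : Fin r}

/-- The modified point of the letter. -/
theorem cubeAt_ofW_win {x : Pk d} (hx : ‖x‖ ≤ 1) (h0 : -3 / 8 ≤ x 0) (h1 : x 0 ≤ -1 / 4) :
    cubeAt (4 * (ofW (H277.win 0 (toW x)) : Pk d) 0 + 3) (ofW (H277.win 0 (toW x)) : Pk d) =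
      cubeAt (8 * x 0 + 3) x := by
  have hx0 : |x 0| ≤ 1 := (norm_le_pi_norm x 0).trans hx
  have e0 : (ofW (H277.win 0 (toW x)) : Pk d) 0 = 2 * x 0 := by
    rw [ofW_zero]
    have e1 : (H277.win 0 (toW x)).1 0 = ph0 (x 0) := by
      show Function.update (toW x).1 0 (phc 0 (x 0)) 0 = _
      rw [Function.update_self, phc_zero]
    rw [e1]
    have e2 : ph0 (x 0) = 2 * x 0 := max_eq_right (by linarith)
    rw [e2]
    exact cl1_of_mem (abs_le.mpr ⟨by linarith, by linarith⟩)
  rw [e0]
  refine cubeAt_congr (fun l hl => ?_) (by congr 1; ring)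
  have hxl : |x l| ≤ 1 := (norm_le_pi_norm x l).trans hx
  rcases Fin.eq_castSucc_or_eq_last l with ⟨l', rfl⟩ | rfl
  · rw [ofW_castSucc]
    have e1 : (H277.win 0 (toW x)).1 l' = x l'.castSucc := by
      show Function.update (toW x).1 0 (phc 0 (x 0)) l' = _
      rw [Function.update_of_ne (fun h => hl (by rw [h]; rfl))]
      rfl
    rw [e1]
    exact cl1_of_mem hxl
  · rw [ofW_last]
    have e1 : (H277.win 0 (toW x)).2 = (x (Fin.last _) + 1) / 2 := rfl
    rw [e1, show 2 * ((x (Fin.last (d + 1 + 1)) + 1) / 2) - 1 = x (Fin.last _) by ring]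
    exact cl1_of_mem hxl

variable {θ : (frk d).PiL (Fin (d + 2))} {ρ L s : ℝ}

/-- **The literal end data satisfy `EndHyp`.** -/
theorem endHyp_c4 (hjk : Nb j k)
    (hsd : SD (stB (frk d) b c ρ k) (stN (frk d) b c k) (stV d r ρ) none (some j) (some k))
    (hsg : SG (stB (frk d) b c ρ k) (stV d r ρ) none (some j) (some k) (se2 d) L s)
    (hdat : BData (frk d).h
      (c4 (stB (frk d) b c ρ k) (stV d r ρ) none (some j) (some k) (stA θ j k) (se2 d) L s)
      (n4 (stB (frk d) b c ρ k) (stN (frk d) b c k) (stV d r ρ) (some j) (some k))) :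
    R996.EndHyp (frk d) b c θ j k s
      ((frk d).base r k + L • se2 d - (4 * s) • ((frk d).base r k - (frk d).base r j))
      (c4 (stB (frk d) b c ρ k) (stV d r ρ) none (some j) (some k) (stA θ j k) (se2 d) L s)
      (n4 (stB (frk d) b c ρ k) (stN (frk d) b c k) (stV d r ρ) (some j) (some k)) := by
  have hkj : (frk d).base r k - (frk d).base r j = sg j k • (frk d).e := nb_sub hjk
  have hn1 : ‖stV d r ρ (some k) - stV d r ρ (some j)‖ = 1 := hsg.n1
  have hvh : ∀ i : Fin r, inner ℝ (stV d r ρ (some i)) (frk d).h = 0 := fun i =>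
    hsg.vh (some i) (Option.some_ne_none i)
  have heh : inner ℝ (stV d r ρ (some k) - stV d r ρ (some j)) (frk d).h = 0 := by
    rw [inner_sub_left, hvh, hvh, sub_zero]
  -- the values of the data
  have ck : ∀ x : Pk d, x 0 ≤ 0 →
      c4 (stB (frk d) b c ρ k) (stV d r ρ) none (some j) (some k) (stA θ j k) (se2 d) L s
        (some k) x = stB (frk d) b c ρ k (some k) x + sc (x 0) •
          ((frk d).base r j + (2 * s) • ((frk d).base r k - (frk d).base r j) -
            (frk d).base r k) := by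
    intro x hx
    unfold c4
    rw [if_pos rfl]
    exact if_pos hx
  have ck' : ∀ x : Pk d, ¬ x 0 ≤ 0 →
      c4 (stB (frk d) b c ρ k) (stV d r ρ) none (some j) (some k) (stA θ j k) (se2 d) L s
        (some k) x = stB (frk d) b c ρ k (some j) x + (2 * s) • stA θ j k x := by
    intro x hx
    unfold c4
    rw [if_pos rfl]
    exact if_neg hx
  have ci : ∀ (i : Fin r), i ≠ k → ∀ x : Pk d,
      c4 (stB (frk d) b c ρ k) (stV d r ρ) none (some j) (some k) (stA θ j k) (se2 d) L s
        (some i) x = stB (frk d) b c ρ k (some i) x := by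
    intro i hi x
    unfold c4
    rw [if_neg (fun h => hi (Option.some_injective _ h)), if_neg (Option.some_ne_none i)]
  have nk : ∀ x : Pk d, x 0 ≤ 0 →
      n4 (stB (frk d) b c ρ k) (stN (frk d) b c k) (stV d r ρ) (some j) (some k) (some k) x =
        nk2 (stB (frk d) b c ρ k) (stN (frk d) b c k) (stV d r ρ) (some j) (some k) x := by
    intro x hx
    unfold n4
    rw [if_pos rfl]
    exact if_pos hx
  have nk' : ∀ x : Pk d, ¬ x 0 ≤ 0 →
      n4 (stB (frk d) b c ρ k) (stN (frk d) b c k) (stV d r ρ) (some j) (some k) (some k) x =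
        stN (frk d) b c k (some j) x := by
    intro x hx
    unfold n4
    rw [if_pos rfl]
    exact if_neg hx
  have ni : ∀ (i : Option (Fin r)), i ≠ some k → ∀ x : Pk d,
      n4 (stB (frk d) b c ρ k) (stN (frk d) b c k) (stV d r ρ) (some j) (some k) i x =
        stN (frk d) b c k i x := by
    intro i hi x
    unfold n4
    rw [if_neg hi]
  have hjk' : j ≠ k := hjk.ne
  refine ⟨hsg.hr, by linarith [hsg.hr8], hdat, fun x _ => ⟨?_, ?_⟩, fun i hi x _ => ⟨?_, ?_⟩,
    fun x hx hx0 => ⟨?_, ?_⟩, fun x hx h1 h2 => ?_, fun x hx h1 h2 => ?_, fun x hx h => ?_,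
    fun x hx h1 => ⟨?_, ?_⟩, fun i hij hik x hx h1 t ht => ?_⟩
  · -- none
    unfold c4
    rw [if_neg (Option.some_ne_none k).symm, if_pos rfl]
    rfl
  · rw [ni none (Option.some_ne_none k).symm]
    rfl
  · -- the other strands
    rw [ci i hi]
    show (if i = k then _ else (PP.ofGL c (cubeAt (4 * x 0 - 1) x)).1.1 i) = _
    rw [if_neg hi]
    rfl
  · rw [ni (some i) (fun h => hi (Option.some_injective _ h))]
    show (if i = k then _ else ((PP.ofGL c (cubeAt (4 * x 0 - 1) x)).2 i : Vk d)) = _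
    rw [if_neg hi]
    rfl
  · -- the letter of `k`
    rw [ck x (by linarith), sc_of_le hx0, zero_smul, add_zero]
    show (if k = k then (PP.ofGL b (cubeAt (4 * x 0 + 3) x)).1.1 k else _) = _
    rw [if_pos rfl]
    rfl
  · rw [nk x (by linarith)]
    unfold nk2
    rw [if_pos (by linarith)]
    show (if k = k then ((PP.ofGL b (cubeAt (4 * x 0 + 3) x)).2 k : Vk d) else _) = _
    rw [if_pos rfl]
    rfl
  · -- between the windows
    rcases le_or_gt (x 0) 0 with h0 | h0
    · refine ⟨sc (x 0), sc_mem _, ?_⟩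
      rw [ck x h0, (stB_k_right (frk d) b c ρ k h1).1, hkj]
    · refine ⟨1, ⟨zero_le_one, le_rfl⟩, ?_⟩
      rw [ck' x (not_le.mpr h0), (stB_left (frk d) b c ρ hjk' h2).1, stA_left hjk θ h2, hkj]
      module
  · -- the twist
    rw [nk x (by linarith)]
    unfold nk2
    by_cases h3 : x 0 ≤ -3 / 8
    · rw [if_pos h3, (stB_k_right (frk d) b c ρ k (by linarith)).2]
      have h4 : R996.lv b (R996.atz 0 (8 * x 0 + 3) (cubeM x)) = (frk d).bx r := by
        refine R996.lv_face b (Or.inl ?_)
        refine ⟨0, Or.inl ?_⟩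
        show Function.update (cubeM x).1 0 (projIcc 0 1 zero_le_one (8 * x 0 + 3)) 0 = 0
        rw [Function.update_self]
        exact projIcc_of_le_left _ (by linarith)
      rw [h4]
      symm
      refine rf_of_inner_eq_zero ?_
      rw [real_inner_comm]
      exact heh
    · rw [if_neg h3]
      have h4 : ckW (stB (frk d) b c ρ k) (some k) (H277.win 0 (toW x)) =
          (R996.lv b (R996.atz 0 (8 * x 0 + 3) (cubeM x))).1.1 k := by
        show (if k = k then (PP.ofGL b (cubeAt (4 * (ofW (H277.win 0 (toW x)) : Pk d) 0 + 3)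
          (ofW (H277.win 0 (toW x)) : Pk d))).1.1 k else _) = _
        rw [if_pos rfl, cubeAt_ofW_win hx h1 h2]
        rfl
      have h5 : ckW (stB (frk d) b c ρ k) (some k) (H277.win 0 (toW x)) -
          (stV d r ρ (some k) - (stV d r ρ (some k) - stV d r ρ (some j))) ≠ 0 := by
        rw [vj_eq]
        exact sub_ne_zero.mpr (ckW_ne hsd hsd.jk _)
      unfold Glet dirk
      rw [rfl'_dir h5, vj_eq, h4]
      rfl
  · -- normals outside the windows
    rcases h with ⟨h1, h2⟩ | ⟨h1, h2⟩
    · rw [nk x (by linarith)]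
      unfold nk2
      rw [if_pos h2]
      exact (stB_k_right (frk d) b c ρ k h1).2
    · rcases le_or_gt (x 0) 0 with h0 | h0
      · rw [nk x h0]
        exact nk2_right hsd hn1 heh h1
      · rw [nk' x (not_le.mpr h0)]
        exact (stB_left (frk d) b c ρ hjk' h2).2
  · rw [ck' x (by linarith), ci j hjk']
    rfl
  · rw [nk' x (by linarith), ni (some j) (fun h => hjk' (Option.some_injective _ h))]
  · -- the other strands are far
    rw [ci i hik, ci j hjk']
    intro h
    have h2 := hsg.gap (some i) (some j) (Option.some_ne_none i) (Option.some_ne_none j)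
      (fun h => hij (Option.some_injective _ h)) x hx
    rw [h, add_sub_cancel_left] at h2
    have h3 : ‖t • stA θ j k x‖ ≤ 2 * s := by
      rw [norm_smul, norm_stA, mul_one, Real.norm_eq_abs, abs_of_nonneg ht.1]
      exact ht.2
    have h4 : 6 * s ≤ ‖t • stA θ j k x‖ := h2
    linarith [hsg.hr]

end Vale.Agent.P268.T.H83
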