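import Vale.Agent.P268.T.A109.Defs

/-!
# P268, topological half, block B6c: the path of the constant sheet at the end of the slide
-/

namespace Vale.Agent.P268.T.H83

open scoped RealInnerProductSpace
open Set Vale.Agent.P268.T.A109

/-- The straight path of the constant sheet from its place near the lifted strand to the far
place stays far from the base point. -/
theorem none_path {V : Type*} [NormedAddCommGroup V] [InnerProductSpace ℝ V] (φ : Fr V)
    {c0 e2 : V} {L s σ : ℝ} (he2 : ‖e2‖ = 1) (hee : ⟪e2, φ.e⟫ = 0)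
    (hc0 : ∃ a : ℝ, 0 ≤ a ∧ c0 = a • φ.e) (hL : 8 ≤ L) (hs : 0 < s) (hs8 : 8 * s ≤ 1)
    (hσ : |σ| = 1) : ∃ ρ₀ : ℝ, ∀ ρ, ρ₀ ≤ ρ → ∀ t ∈ Icc (0 : ℝ) 1,
      L - 7 < ‖((1 - t) • (c0 + L • e2 - (4 * s) • (σ • φ.e)) + t • (-(ρ • φ.e))) - c0‖ := by
  obtain ⟨a, ha, rfl⟩ := hc0
  refine ⟨L ^ 2, fun ρ hρ t ht => ?_⟩
  obtain ⟨ht0, ht1⟩ := ht
  have hee1 : ⟪φ.e, φ.e⟫ = 1 := by rw [real_inner_self_eq_norm_sq, φ.he, one_pow]
  have he22 : ⟪e2, e2⟫ = 1 := by rw [real_inner_self_eq_norm_sq, he2, one_pow]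
  have hee' : ⟪φ.e, e2⟫ = 0 := by rw [real_inner_comm]; exact hee
  set w : V := ((1 - t) • (a • φ.e + L • e2 - (4 * s) • (σ • φ.e)) + t • (-(ρ • φ.e))) - a • φ.e
    with hw
  have hw' : w = ((1 - t) * L) • e2 - (t * (a + ρ) + (1 - t) * (4 * s * σ)) • φ.e := by
    rw [hw]
    module
  have h1 : ⟪w, e2⟫ = (1 - t) * L := by
    rw [hw', inner_sub_left, inner_smul_left, inner_smul_left, he22, hee']
    simp
  have h2 : ⟪w, φ.e⟫ = -(t * (a + ρ) + (1 - t) * (4 * s * σ)) := by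
    rw [hw', inner_sub_left, inner_smul_left, inner_smul_left, hee1, hee]
    simp
  have h3 : (1 - t) * L ≤ ‖w‖ := by
    have := real_inner_le_norm w e2
    rwa [h1, he2, mul_one] at this
  have h4 : t * (a + ρ) + (1 - t) * (4 * s * σ) ≤ ‖w‖ := by
    have h5 := abs_real_inner_le_norm w φ.e
    rw [h2, φ.he, mul_one, abs_neg] at h5
    exact (le_abs_self _).trans h5
  rcases lt_or_ge (t * L) 7 with h5 | h5
  · have : (1 - t) * L = L - t * L := by ring
    linarith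
  · have hσ1 : -1 ≤ σ := (abs_le.mp hσ.le).1
    have h6 : -(1 / 2) ≤ (1 - t) * (4 * s * σ) := by
      have h7 : -(4 * s) ≤ 4 * s * σ := by nlinarith
      have h8 : (1 - t) * -(4 * s) ≤ (1 - t) * (4 * s * σ) :=
        mul_le_mul_of_nonneg_left h7 (by linarith)
      nlinarith
    have h7 : t * L ^ 2 ≤ t * (a + ρ) := mul_le_mul_of_nonneg_left (by linarith) ht0
    have h8 : 7 * L ≤ t * L ^ 2 := by nlinarith
    linarith

end Vale.Agent.P268.T.H83
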