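import Vale.Agent.P268.T.Push

/-!
# P268, topological half: ambient isotopies which preserve a subspace `H`

Points moving in `H` are followed by homeomorphisms of `V` which move every point parallel to `H`.
-/

set_option linter.unusedSectionVars false

namespace Vale.Agent.P268.T

open Set Filter Topology Push

namespace H83

section General

variable {V : Type*} [NormedAddCommGroup V] [NormedSpace ℝ V]

/-- Extend a homeomorphism of `H` to `V`, along a projection. -/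
def extH (H : Submodule ℝ V) (π : V →L[ℝ] H) (hπ : ∀ v : H, π v = v) (φ : H ≃ₜ H) : V ≃ₜ V where
  toFun v := v + ((φ (π v) - π v : H) : V)
  invFun v := v + ((φ.symm (π v) - π v : H) : V)
  left_inv v := by
    have h : π (v + ((φ (π v) - π v : H) : V)) = φ (π v) := by
      rw [map_add, hπ]; abel
    show v + ((φ (π v) - π v : H) : V) +
      ((φ.symm (π (v + ((φ (π v) - π v : H) : V))) - π (v + ((φ (π v) - π v : H) : V)) : H) : V) = v
    rw [h, φ.symm_apply_apply]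
    push_cast
    abel
  right_inv v := by
    have h : π (v + ((φ.symm (π v) - π v : H) : V)) = φ.symm (π v) := by
      rw [map_add, hπ]; abel
    show v + ((φ.symm (π v) - π v : H) : V) +
      ((φ (π (v + ((φ.symm (π v) - π v : H) : V))) -
        π (v + ((φ.symm (π v) - π v : H) : V)) : H) : V) = v
    rw [h, φ.apply_symm_apply]
    push_cast
    abel
  continuous_toFun := by fun_prop
  continuous_invFun := by fun_prop

theorem extH_apply (H : Submodule ℝ V) (π : V →L[ℝ] H) (hπ : ∀ v : H, π v = v) (φ : H ≃ₜ H)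
    (v : V) : extH H π hπ φ v = v + ((φ (π v) - π v : H) : V) := rfl

theorem extH_symm_apply (H : Submodule ℝ V) (π : V →L[ℝ] H) (hπ : ∀ v : H, π v = v) (φ : H ≃ₜ H)
    (v : V) : (extH H π hπ φ).symm v = v + ((φ.symm (π v) - π v : H) : V) := rfl

theorem extH_coe (H : Submodule ℝ V) (π : V →L[ℝ] H) (hπ : ∀ v : H, π v = v) (φ : H ≃ₜ H)
    (v : H) : extH H π hπ φ v = (φ v : V) := by
  rw [extH_apply, hπ]
  push_cast
  abel

/-- **Push in a subspace**, with parameters in a compact space. -/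
theorem exists_pushH' (H : Submodule ℝ V) [CompleteSpace H] (π : V →L[ℝ] H)
    (hπ : ∀ v : H, π v = v) {ι : Type*} [Fintype ι] {K : Type*} [TopologicalSpace K]
    [CompactSpace K] (h : K → ℝ → ι → V)
    (hc : ContinuousOn (fun p : K × ℝ => h p.1 p.2) (univ ×ˢ Icc 0 1))
    (hH : ∀ b, ∀ τ ∈ Icc (0 : ℝ) 1, ∀ i, h b τ i ∈ H)
    (hinj : ∀ b, ∀ τ ∈ Icc (0 : ℝ) 1, Function.Injective (h b τ)) :
    ∃ (Φ : K → ℝ → V ≃ₜ V) (R : ℝ),
      (Continuous fun p : K × ℝ × V => Φ p.1 p.2.1 p.2.2) ∧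
      (Continuous fun p : K × ℝ × V => (Φ p.1 p.2.1).symm p.2.2) ∧
      (∀ b, Φ b 0 = Homeomorph.refl V) ∧
      (∀ b, ∀ τ ∈ Icc (0 : ℝ) 1, ∀ i, Φ b τ (h b 0 i) = h b τ i) ∧
      (∀ b τ x, Φ b τ x - x ∈ H) ∧
      (∀ b τ x, Φ b τ x ∈ H ↔ x ∈ H) ∧
      (∀ b τ x, R ≤ ‖π x‖ → Φ b τ x = x) ∧
      (∀ b, ∀ τ ∈ Icc (0 : ℝ) 1, (∀ τ' ∈ Icc 0 τ, h b τ' = h b 0) →
        Φ b τ = Homeomorph.refl V) := by
  -- the motion in `H`
  set g : K → ℝ → ι → H := fun b τ i => ⟨h b (cl τ) i, hH b _ (cl_mem τ) i⟩ with hg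
  have hgc : Continuous fun p : K × ℝ => g p.1 p.2 := by
    refine continuous_pi fun i => Continuous.subtype_mk ?_ _
    have h1 : Continuous fun p : K × ℝ => (p.1, cl p.2) :=
      continuous_fst.prodMk (continuous_cl.comp continuous_snd)
    have h2 : Continuous fun p : K × ℝ => h p.1 (cl p.2) :=
      hc.comp_continuous h1 fun p => ⟨mem_univ _, cl_mem _⟩
    exact (continuous_apply i).comp h2
  have hginj : ∀ b, ∀ τ ∈ Icc (0 : ℝ) 1, Function.Injective (g b τ) := fun b τ hτ i j hij =>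
    hinj b _ (cl_mem τ) (congrArg Subtype.val hij)
  obtain ⟨Ψ, R, c1, c2, h0, h1, h2, h3⟩ := exists_push g hgc hginj
  have hcl : ∀ τ ∈ Icc (0 : ℝ) 1, ∀ b i, ((g b τ i : H) : V) = h b τ i := fun τ hτ b i => by
    rw [hg]; simp only; rw [cl_of hτ]
  have h00 : (0 : ℝ) ∈ Icc (0 : ℝ) 1 := left_mem_Icc.mpr zero_le_one
  refine ⟨fun b τ => extH H π hπ (Ψ b τ), R, ?_, ?_, ?_, ?_, ?_, ?_, ?_, ?_⟩
  · have e : Continuous fun p : K × ℝ × V => Ψ p.1 p.2.1 (π p.2.2) :=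
      c1.comp (continuous_fst.prodMk ((continuous_fst.comp continuous_snd).prodMk
        (π.continuous.comp (continuous_snd.comp continuous_snd))))
    show Continuous fun p : K × ℝ × V => p.2.2 + ((Ψ p.1 p.2.1 (π p.2.2) - π p.2.2 : H) : V)
    fun_prop
  · have e : Continuous fun p : K × ℝ × V => (Ψ p.1 p.2.1).symm (π p.2.2) :=
      c2.comp (continuous_fst.prodMk ((continuous_fst.comp continuous_snd).prodMk
        (π.continuous.comp (continuous_snd.comp continuous_snd))))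
    show Continuous fun p : K × ℝ × V => p.2.2 + (((Ψ p.1 p.2.1).symm (π p.2.2) - π p.2.2 : H) : V)
    fun_prop
  · intro b
    ext v
    rw [extH_apply, h0]
    simp
  · intro b τ hτ i
    have e := h1 b τ hτ i
    rw [← hcl 0 h00, ← hcl τ hτ, extH_coe, e]
  · intro b τ x
    show extH H π hπ (Ψ b τ) x - x ∈ H
    rw [extH_apply, add_sub_cancel_left]
    exact Subtype.property _
  · intro b τ x
    show extH H π hπ (Ψ b τ) x ∈ H ↔ x ∈ H
    rw [extH_apply]
    exact ⟨fun h => by simpa using H.sub_mem h (Subtype.property (Ψ b τ (π x) - π x)),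
      fun h => H.add_mem h (Subtype.property _)⟩
  · intro b τ x hx
    show extH H π hπ (Ψ b τ) x = x
    rw [extH_apply, h2 b τ _ (by simpa using hx)]
    simp
  · intro b τ hτ hcst
    have e := h3 b τ hτ fun τ' hτ' => by
      funext i
      apply Subtype.ext
      rw [hcl τ' ⟨hτ'.1, hτ'.2.trans hτ.2⟩, hcl 0 h00, hcst τ' hτ']
    ext v
    show extH H π hπ (Ψ b τ) v = v
    rw [extH_apply, e]
    simp

end General

section Inner

variable {V : Type*} [NormedAddCommGroup V] [InnerProductSpace ℝ V] [FiniteDimensional ℝ V]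

/-- The projection to the orthogonal complement of `e`. -/
noncomputable def prH (e : V) : V →L[ℝ] (ℝ ∙ e)ᗮ := (ℝ ∙ e)ᗮ.orthogonalProjectionOnto

theorem prH_coe (e : V) (v : (ℝ ∙ e)ᗮ) : prH e v = v :=
  Submodule.orthogonalProjectionOnto_mem_subspace_eq_self v

/-- **PUSHH.** Points moving in `H = e_h^⊥` are followed by homeomorphisms of `V` which preserve
`H`. -/
theorem exists_pushH (eh : V) {ι : Type*} [Fintype ι] (h : ℝ → ι → V)
    (hc : ContinuousOn h (Icc 0 1)) (hH : ∀ τ ∈ Icc (0 : ℝ) 1, ∀ i, h τ i ∈ (ℝ ∙ eh)ᗮ)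
    (hinj : ∀ τ ∈ Icc (0 : ℝ) 1, Function.Injective (h τ)) :
    ∃ (Φ : ℝ → V ≃ₜ V) (R : ℝ), (Continuous fun p : ℝ × V => Φ p.1 p.2) ∧
      (Continuous fun p : ℝ × V => (Φ p.1).symm p.2) ∧ Φ 0 = Homeomorph.refl V ∧
      (∀ τ ∈ Icc (0 : ℝ) 1, ∀ i, Φ τ (h 0 i) = h τ i) ∧
      (∀ τ v, Φ τ v - v ∈ (ℝ ∙ eh)ᗮ) ∧ (∀ τ v, Φ τ v ∈ (ℝ ∙ eh)ᗮ ↔ v ∈ (ℝ ∙ eh)ᗮ) ∧
      (∀ τ v, R ≤ ‖prH eh v‖ → Φ τ v = v) ∧
      (∀ τ ∈ Icc (0 : ℝ) 1, (∀ τ' ∈ Icc 0 τ, h τ' = h 0) → Φ τ = Homeomorph.refl V) := by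
  obtain ⟨Φ, R, c1, c2, h0, h1, h2, h3, h4, h5⟩ := exists_pushH' (ℝ ∙ eh)ᗮ (prH eh) (prH_coe eh)
    (K := Unit) (fun _ τ => h τ)
    (hc.comp continuousOn_snd fun p hp => hp.2) (fun _ => hH) (fun _ => hinj)
  exact ⟨Φ (), R, c1.comp (continuous_const.prodMk continuous_id),
    c2.comp (continuous_const.prodMk continuous_id), h0 (), h1 (), h2 (), h3 (), h4 (), h5 ()⟩

end Inner

end H83

end Vale.Agent.P268.T
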